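import Vale.Agent.Lib.P174.GenG

namespace Vale.Agent.Results.P174.ModPClosure

open Vale.Agent.Lib.P174 Vale.Agent.Lib.P174.Gen

universe u

/-- Let `p` be a prime and `N` a normal subgroup of a group `G` such that `G/N` is abelian and
torsion-free, or abelian of exponent `p`, or a finite `p`-group. (1) If every finite system over `N`
whose exponent-sum matrix has full row rank modulo `p` is solvable over `N`, the same holds for `G`.
(2) If every nonsingular finite system over `N` is solvable over `N`, then every finite system over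
`G` whose exponent-sum matrix has full row rank modulo `p` is nonsingular and solvable over `G`. -/
theorem result (p : ℕ) [Fact p.Prime] {G : Type u} [Group G] (N : Subgroup G) [N.Normal]
    (hq : ((∀ a b : G, a * b * a⁻¹ * b⁻¹ ∈ N) ∧
            ((∀ (a : G) (k : ℕ), 0 < k → a ^ k ∈ N → a ∈ N) ∨ ∀ a : G, a ^ p ∈ N)) ∨
          (N.index ≠ 0 ∧ IsPGroup p (G ⧸ N))) :
    ((∀ (m n : ℕ) (W : Fin m → Eqn N n), NonsingularF (ZMod p) W → SolvableOver W) →
      ∀ (m n : ℕ) (W : Fin m → Eqn G n), NonsingularF (ZMod p) W → SolvableOver W) ∧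
    ((∀ (m n : ℕ) (W : Fin m → Eqn N n), Nonsingular W → SolvableOver W) →
      ∀ (m n : ℕ) (W : Fin m → Eqn G n), NonsingularF (ZMod p) W →
        Nonsingular W ∧ SolvableOver W) := by
  have key : (∀ (m n : ℕ) (W : Fin m → Eqn N n), NonsingularF (ZMod p) W → SolvableOver W) →
      ∀ (m n : ℕ) (W : Fin m → Eqn G n), NonsingularF (ZMod p) W → SolvableOver W := by
    intro hN
    rcases hq with ⟨hab, htf | hp⟩ | ⟨hi, hP⟩
    · exact modp_tf_quot p N hab htf hN
    · exact modp_elem_quot p N hab hp hN
    · exact modp_pgroup p N.index N rfl hi hP hN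
  refine ⟨key, fun hN m n W hW => ⟨nonsingular_of_mod p W hW, ?_⟩⟩
  exact key (fun m n W hW => hN m n W (nonsingular_of_mod p W hW)) m n W hW

end Vale.Agent.Results.P174.ModPClosure
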