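import Vale.Agent.Lib.P174.TriNonsing

namespace Vale.Agent.Results.P174.TriangularPositive

open Vale.Agent.Lib.P174

universe u

/-- For EVERY group `G`: a system `w_1, ..., w_n` in `G * F_n` in which the `i`-th equation has the
form `c_1 x_i c_2 x_i ... c_k x_i` (`k ≥ 1`), the coefficients `c_s` being arbitrary elements of the
subgroup generated by `G` and the earlier unknowns `x_j`, `j < i` (which may occur there with
exponents of both signs), is nonsingular and solvable over `G`. -/
theorem result {G : Type u} [Group G] {n : ℕ} (W : Fin n → Eqn G n) (hW : TriPos W) :
    Nonsingular W ∧ SolvableOver W :=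
  ⟨hW.nonsingular, hW.solvable⟩

end Vale.Agent.Results.P174.TriangularPositive
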