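import Vale.Agent.Results.P174.TorsionFreeAbelianQuotient
import Vale.Agent.Results.P174.TriangularPositive
import Vale.Agent.Results.P174.ModPClosure

/-!
Three results on Howie's conjecture (nonsingular systems of equations over groups) in one
statement:
(1) the class of groups satisfying the conjecture is closed under extensions with torsion-free
abelian quotient;
(2) closure theorems for the systems that are nonsingular modulo a prime `p`, for quotients that
are torsion-free abelian, abelian of exponent `p`, or finite `p`-groups;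
(3) over an arbitrary group every triangular system that is positive in the diagonal unknown is
nonsingular and solvable.
-/

namespace Vale.Agent.Results.P174.A0_Combined

open Vale.Agent.Lib.P174 Vale.Agent.Lib.P174.Gen

universe u

theorem result :
    (∀ (G : Type u) [Group G] (N : Subgroup G) [N.Normal],
      (∀ a b : G, a * b * a⁻¹ * b⁻¹ ∈ N) →
      (∀ (a : G) (k : ℕ), 0 < k → a ^ k ∈ N → a ∈ N) →
      (∀ (m n : ℕ) (W : Fin m → Eqn N n), Nonsingular W → SolvableOver W) →
      ∀ (m n : ℕ) (W : Fin m → Eqn G n), Nonsingular W → SolvableOver W) ∧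
    (∀ (p : ℕ) [Fact p.Prime] (G : Type u) [Group G] (N : Subgroup G) [N.Normal],
      (((∀ a b : G, a * b * a⁻¹ * b⁻¹ ∈ N) ∧
            ((∀ (a : G) (k : ℕ), 0 < k → a ^ k ∈ N → a ∈ N) ∨ ∀ a : G, a ^ p ∈ N)) ∨
          (N.index ≠ 0 ∧ IsPGroup p (G ⧸ N))) →
      ((∀ (m n : ℕ) (W : Fin m → Eqn N n), NonsingularF (ZMod p) W → SolvableOver W) →
        ∀ (m n : ℕ) (W : Fin m → Eqn G n), NonsingularF (ZMod p) W → SolvableOver W) ∧
      ((∀ (m n : ℕ) (W : Fin m → Eqn N n), Nonsingular W → SolvableOver W) →
        ∀ (m n : ℕ) (W : Fin m → Eqn G n), NonsingularF (ZMod p) W →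
          Nonsingular W ∧ SolvableOver W)) ∧
    (∀ (G : Type u) [Group G] (n : ℕ) (W : Fin n → Eqn G n), TriPos W →
      Nonsingular W ∧ SolvableOver W) :=
  ⟨fun _ _ N _ hab htf hN =>
      Vale.Agent.Results.P174.TorsionFreeAbelianQuotient.result N hab htf hN,
    fun p _ _ _ N _ hq => Vale.Agent.Results.P174.ModPClosure.result p N hq,
    fun _ _ _ W hW => Vale.Agent.Results.P174.TriangularPositive.result W hW⟩

end Vale.Agent.Results.P174.A0_Combined
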