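import Vale.Agent.Lib.P174.GenH

namespace Vale.Agent.Results.P174.A1_Series

open Vale.Agent.Lib.P174 Vale.Agent.Lib.P174.Gen

universe u

/-- Let `S 0 ≤ S 1 ≤ ... ≤ S r = G` be subgroups of a group `G`, each normal in the next one.
(1) If all factors are abelian and torsion-free and every nonsingular finite system over `S 0` is
solvable over `S 0`, then every nonsingular finite system over `G` is solvable over `G`.
(2) Let `p` be a prime and let every factor be abelian and torsion-free, or abelian of exponent `p`,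
or a finite `p`-group. If every finite system over `S 0` that is nonsingular modulo `p` is solvable
over `S 0`, the same holds for `G`; and if every nonsingular finite system over `S 0` is solvable over
`S 0`, then every finite system over `G` that is nonsingular modulo `p` is nonsingular and solvable
over `G`. -/
theorem result {G : Type u} [Group G] (r : ℕ) (S : ℕ → Subgroup G) (htop : S r = ⊤)
    (hle : ∀ i < r, S i ≤ S (i + 1))
    (hn : ∀ i < r, ((S i).subgroupOf (S (i + 1))).Normal) :
    ((∀ i < r, (∀ a ∈ S (i + 1), ∀ b ∈ S (i + 1), a * b * a⁻¹ * b⁻¹ ∈ S i) ∧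
        ∀ a ∈ S (i + 1), ∀ k : ℕ, 0 < k → a ^ k ∈ S i → a ∈ S i) →
      (∀ (m n : ℕ) (W : Fin m → Eqn (S 0) n), Nonsingular W → SolvableOver W) →
      ∀ (m n : ℕ) (W : Fin m → Eqn G n), Nonsingular W → SolvableOver W) ∧
    (∀ (p : ℕ) [Fact p.Prime],
      (∀ i < r, ((∀ a ∈ S (i + 1), ∀ b ∈ S (i + 1), a * b * a⁻¹ * b⁻¹ ∈ S i) ∧
          ((∀ a ∈ S (i + 1), ∀ k : ℕ, 0 < k → a ^ k ∈ S i → a ∈ S i) ∨
            ∀ a ∈ S (i + 1), a ^ p ∈ S i)) ∨
        ((S i).relIndex (S (i + 1)) ≠ 0 ∧ ∀ a ∈ S (i + 1), ∃ k : ℕ, a ^ p ^ k ∈ S i)) →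
      ((∀ (m n : ℕ) (W : Fin m → Eqn (S 0) n), NonsingularF (ZMod p) W → SolvableOver W) →
        ∀ (m n : ℕ) (W : Fin m → Eqn G n), NonsingularF (ZMod p) W → SolvableOver W) ∧
      ((∀ (m n : ℕ) (W : Fin m → Eqn (S 0) n), Nonsingular W → SolvableOver W) →
        ∀ (m n : ℕ) (W : Fin m → Eqn G n), NonsingularF (ZMod p) W →
          Nonsingular W ∧ SolvableOver W)) := by
  refine ⟨fun h h0 => series_rat r S htop hle hn (fun i hi => (h i hi).1) (fun i hi => (h i hi).2) h0,
    fun p _ h => ⟨fun h0 => series_modp p r S htop hle hn h h0, fun h0 m n W hW =>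
      ⟨nonsingular_of_mod p W hW, ?_⟩⟩⟩
  exact series_modp p r S htop hle hn h
    (fun m n W hW => h0 m n W (nonsingular_of_mod p W hW)) m n W hW

end Vale.Agent.Results.P174.A1_Series
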