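import Vale.Agent.Results.P174.TorsionFreeAbelianQuotient
import Vale.Agent.Results.P174.TriangularPositive

/-!
Two results on Howie's conjecture (nonsingular systems of equations over groups) in one statement:
(1) the class of groups satisfying the conjecture is closed under extensions with torsion-free
abelian quotient;
(2) over an arbitrary group every triangular system that is positive in the diagonal unknown is
nonsingular and solvable.
-/

namespace Vale.Agent.Results.P174.A_Combined

open Vale.Agent.Lib.P174

universe u

theorem result :
    (∀ (G : Type u) [Group G] (N : Subgroup G) [N.Normal],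
      (∀ a b : G, a * b * a⁻¹ * b⁻¹ ∈ N) →
      (∀ (a : G) (k : ℕ), 0 < k → a ^ k ∈ N → a ∈ N) →
      (∀ (m n : ℕ) (W : Fin m → Eqn N n), Nonsingular W → SolvableOver W) →
      ∀ (m n : ℕ) (W : Fin m → Eqn G n), Nonsingular W → SolvableOver W) ∧
    (∀ (G : Type u) [Group G] (n : ℕ) (W : Fin n → Eqn G n), TriPos W →
      Nonsingular W ∧ SolvableOver W) :=
  ⟨fun _ _ N _ hab htf hN =>
      Vale.Agent.Results.P174.TorsionFreeAbelianQuotient.result N hab htf hN,
    fun _ _ _ W hW => Vale.Agent.Results.P174.TriangularPositive.result W hW⟩

end Vale.Agent.Results.P174.A_Combined
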