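import Vale.Agent.Lib.P174.ExtE

namespace Vale.Agent.Results.P174.RationalKernel

open Vale.Agent.Lib.P174

universe u

/-- Let `π` be any homomorphism from a group `G` to (the additive group of) a rational vector
space `V`. If every nonsingular finite system of equations over the kernel of `π` is solvable over
the kernel, then every nonsingular finite system of equations over `G` is solvable over `G`. -/
theorem result {G : Type u} [Group G] {V : Type u} [AddCommGroup V] [Module ℚ V]
    (π : G →* Multiplicative V)
    (hN : ∀ (m n : ℕ) (W : Fin m → Eqn π.ker n), Nonsingular W → SolvableOver W) :
    ∀ (m n : ℕ) (W : Fin m → Eqn G n), Nonsingular W → SolvableOver W :=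
  fun _ _ W hW => howie_ext π hN W hW

end Vale.Agent.Results.P174.RationalKernel
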