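import Vale.Agent.Lib.P174.ExtF

namespace Vale.Agent.Results.P174.TorsionFreeAbelianQuotient

open Vale.Agent.Lib.P174

universe u

/-- Let `N` be a normal subgroup of a group `G` such that `G/N` is abelian (all commutators lie in
`N`) and torsion-free (`a ^ k ∈ N` with `k > 0` forces `a ∈ N`). If every nonsingular finite system
of equations over `N` is solvable over `N`, then every nonsingular finite system of equations over
`G` is solvable over `G`. -/
theorem result {G : Type u} [Group G] (N : Subgroup G) [N.Normal]
    (hab : ∀ a b : G, a * b * a⁻¹ * b⁻¹ ∈ N)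
    (htf : ∀ (a : G) (k : ℕ), 0 < k → a ^ k ∈ N → a ∈ N)
    (hN : ∀ (m n : ℕ) (W : Fin m → Eqn N n), Nonsingular W → SolvableOver W) :
    ∀ (m n : ℕ) (W : Fin m → Eqn G n), Nonsingular W → SolvableOver W :=
  fun _ _ W hW => howie_ext_quot N hab htf hN W hW

end Vale.Agent.Results.P174.TorsionFreeAbelianQuotient
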